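import Mathlib

/-!
# P273, row NEG-I (helper120): the fibre integral bound at one node

(I1) the weight of a gap, (I2) the product bound over one region (sizes, angles, core points),
(I3) the weight of a core point is integrable, uniformly for separated roots.
-/

open MeasureTheory Set

namespace Vale.Agent.P273.H120

noncomputable section

/-! ## (I1) the weight of one gap -/

/-- The weight of a gap of size `u` in a neck of length `M`. -/
def q (M u : ℝ) : ℝ := max (Real.exp (-u)) (1 / M)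

theorem q_pos (M u : ℝ) : 0 < q M u := lt_max_of_lt_left (Real.exp_pos _)

theorem q_nonneg (M u : ℝ) : 0 ≤ q M u := (q_pos M u).le

theorem exp_neg_le_q (M u : ℝ) : Real.exp (-u) ≤ q M u := le_max_left _ _

theorem one_div_le_q (M u : ℝ) : 1 / M ≤ q M u := le_max_right _ _

theorem q_le_add {M : ℝ} (hM : 0 ≤ M) (u : ℝ) : q M u ≤ Real.exp (-u) + 1 / M :=
  max_le (le_add_of_nonneg_right (by positivity)) (le_add_of_nonneg_left (Real.exp_pos _).le)

theorem q_le_one {M u : ℝ} (hM : 1 ≤ M) (hu : 0 ≤ u) : q M u ≤ 1 := by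
  refine max_le ?_ ?_
  · rw [Real.exp_le_one_iff]; linarith
  · rw [div_le_one (by linarith)]; exact hM

theorem continuous_q (M : ℝ) : Continuous (q M) :=
  (Real.continuous_exp.comp continuous_neg).max continuous_const

theorem integrableOn_q (M : ℝ) : IntegrableOn (q M) (Icc 0 M) :=
  (continuous_q M).continuousOn.integrableOn_compact isCompact_Icc

/-- **(I1)** -/
theorem integral_q_le {M : ℝ} (hM : 1 ≤ M) : ∫ u in Icc 0 M, q M u ≤ 2 := by
  have h0 : (0 : ℝ) ≤ M := by linarith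
  have hc : Continuous fun u : ℝ => Real.exp (-u) + 1 / M := by fun_prop
  calc ∫ u in Icc 0 M, q M u ≤ ∫ u in Icc 0 M, (Real.exp (-u) + 1 / M) := by
        refine setIntegral_mono (integrableOn_q M)
          (hc.continuousOn.integrableOn_compact isCompact_Icc) fun u => q_le_add h0 u
    _ = ∫ u in (0 : ℝ)..M, (Real.exp (-u) + 1 / M) := by
        rw [integral_Icc_eq_integral_Ioc, intervalIntegral.integral_of_le h0]
    _ = (1 - Real.exp (-M)) + 1 := by
        have hi : IntervalIntegrable (fun u : ℝ => Real.exp (-u)) volume 0 M :=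
          (Real.continuous_exp.comp continuous_neg).intervalIntegrable _ _
        rw [intervalIntegral.integral_add hi (continuous_const.intervalIntegrable _ _)]
        congr 1
        · rw [intervalIntegral.integral_comp_neg (fun x => Real.exp x), integral_exp]
          simp
        · rw [intervalIntegral.integral_const, smul_eq_mul, sub_zero]
          field_simp
    _ ≤ 2 := by linarith [Real.exp_pos (-M)]

/-! ## (I2) one region -/

section Region

variable {F C : Type*} [Fintype F] [Fintype C] {G : Type*} [NormedAddCommGroup G]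

/-- The domain of the sizes and angles of the free gaps. -/
def box (M : ℝ) (c : F → ℝ) : Set ((F → ℝ) × (F → ℝ) × (C → ℂ)) :=
  {p | (∀ f, p.1 f ∈ Icc 0 M) ∧ ∀ f, p.2.1 f ∈ Icc (c f) (c f + 2 * Real.pi)}

/-- The majorant. -/
def majo (A M : ℝ) (c : F → ℝ) (w : C → ℂ → ℝ) (p : (F → ℝ) × (F → ℝ) × (C → ℂ)) : ℝ :=
  A * ((∏ f, (Icc 0 M).indicator (q M) (p.1 f)) *
    ((∏ f, (Icc (c f) (c f + 2 * Real.pi)).indicator (fun _ => (1 : ℝ)) (p.2.1 f)) *
      ∏ i, w i (p.2.2 i)))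

theorem integrable_majo (A M : ℝ) (c : F → ℝ) {w : C → ℂ → ℝ} (hw : ∀ i, Integrable (w i)) :
    Integrable (majo A M c w) := by
  refine Integrable.const_mul ?_ A
  refine Integrable.mul_prod (f := fun u : F → ℝ => ∏ f, (Icc 0 M).indicator (q M) (u f))
    (g := fun z : (F → ℝ) × (C → ℂ) =>
      (∏ f, (Icc (c f) (c f + 2 * Real.pi)).indicator (fun _ => (1 : ℝ)) (z.1 f)) *
        ∏ i, w i (z.2 i)) ?_ ?_
  · exact Integrable.fintype_prod_dep (f := fun (_ : F) (x : ℝ) => (Icc 0 M).indicator (q M) x)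
      fun _ => (integrable_indicator_iff measurableSet_Icc).2 (integrableOn_q M)
  · refine Integrable.mul_prod
      (f := fun v : F → ℝ =>
        ∏ f, (Icc (c f) (c f + 2 * Real.pi)).indicator (fun _ => (1 : ℝ)) (v f))
      (g := fun s : C → ℂ => ∏ i, w i (s i)) ?_ ?_
    · refine Integrable.fintype_prod_dep
        (f := fun (f : F) (x : ℝ) => (Icc (c f) (c f + 2 * Real.pi)).indicator
          (fun _ => (1 : ℝ)) x) fun f => ?_
      refine (integrable_indicator_iff measurableSet_Icc).2 ?_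
      exact continuous_const.continuousOn.integrableOn_compact isCompact_Icc
    · exact Integrable.fintype_prod_dep (f := w) hw

theorem integral_majo_le {A M : ℝ} (hA : 0 ≤ A) (hM : 1 ≤ M) (c : F → ℝ) {w : C → ℂ → ℝ}
    (hw0 : ∀ i x, 0 ≤ w i x) :
    ∫ p, majo A M c w p ≤ A * (4 * Real.pi) ^ Fintype.card F * ∏ i, ∫ x, w i x := by
  have hpi := Real.pi_pos
  have h1 : ∫ u : F → ℝ, ∏ f, (Icc 0 M).indicator (q M) (u f) ≤ 2 ^ Fintype.card F := by
    rw [integral_fintype_prod_volume_eq_pow (fun x => (Icc 0 M).indicator (q M) x)]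
    refine pow_le_pow_left₀ (integral_nonneg fun x => indicator_nonneg (fun _ _ => q_nonneg _ _) x)
      ?_ _
    rw [integral_indicator measurableSet_Icc]
    exact integral_q_le hM
  have h2 : ∫ v : F → ℝ, ∏ f, (Icc (c f) (c f + 2 * Real.pi)).indicator (fun _ => (1 : ℝ)) (v f) =
      (2 * Real.pi) ^ Fintype.card F := by
    rw [integral_fintype_prod_volume_eq_prod (fun (f : F) (x : ℝ) =>
      (Icc (c f) (c f + 2 * Real.pi)).indicator (fun _ => (1 : ℝ)) x)]
    have : ∀ f : F, ∫ x : ℝ, (Icc (c f) (c f + 2 * Real.pi)).indicator (fun _ => (1 : ℝ)) x =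
        2 * Real.pi := by
      intro f
      rw [integral_indicator measurableSet_Icc, setIntegral_const, smul_eq_mul, mul_one,
        Real.volume_real_Icc_of_le (by linarith)]
      ring
    simp only [this, Finset.prod_const, Finset.card_univ]
  have h3 : ∫ s : C → ℂ, ∏ i, w i (s i) = ∏ i, ∫ x, w i x :=
    integral_fintype_prod_volume_eq_prod w
  have hw1 : 0 ≤ ∏ i, ∫ x, w i x := Finset.prod_nonneg fun i _ => integral_nonneg (hw0 i)
  have e : ∫ p, majo A M c w p = A * ((∫ u : F → ℝ, ∏ f, (Icc 0 M).indicator (q M) (u f)) *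
      ((∫ v : F → ℝ, ∏ f, (Icc (c f) (c f + 2 * Real.pi)).indicator (fun _ => (1 : ℝ)) (v f)) *
        ∫ s : C → ℂ, ∏ i, w i (s i))) := by
    unfold majo
    rw [integral_const_mul]
    congr 1
    rw [Measure.volume_eq_prod, integral_prod_mul
      (fun u : F → ℝ => ∏ f, (Icc 0 M).indicator (q M) (u f))
      (fun z : (F → ℝ) × (C → ℂ) =>
        (∏ f, (Icc (c f) (c f + 2 * Real.pi)).indicator (fun _ => (1 : ℝ)) (z.1 f)) *
          ∏ i, w i (z.2 i))]
    congr 1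
    rw [Measure.volume_eq_prod, integral_prod_mul
      (fun v : F → ℝ =>
        ∏ f, (Icc (c f) (c f + 2 * Real.pi)).indicator (fun _ => (1 : ℝ)) (v f))
      (fun s : C → ℂ => ∏ i, w i (s i))]
  rw [e, h2, h3]
  calc A * ((∫ u : F → ℝ, ∏ f, (Icc 0 M).indicator (q M) (u f)) *
        ((2 * Real.pi) ^ Fintype.card F * ∏ i, ∫ x, w i x))
      ≤ A * (2 ^ Fintype.card F * ((2 * Real.pi) ^ Fintype.card F * ∏ i, ∫ x, w i x)) := by
        gcongr
    _ = A * (4 * Real.pi) ^ Fintype.card F * ∏ i, ∫ x, w i x := by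
        rw [show (4 * Real.pi) = 2 * (2 * Real.pi) by ring, mul_pow 2 (2 * Real.pi)]; ring

theorem norm_le_majo {h : (F → ℝ) × (F → ℝ) × (C → ℂ) → G} {A M : ℝ} {c : F → ℝ}
    {w : C → ℂ → ℝ}
    (h1 : ∀ᵐ p, p ∈ box (C := C) M c → ‖h p‖ ≤ A * ((∏ f, q M (p.1 f)) * ∏ i, w i (p.2.2 i)))
    (h0 : ∀ᵐ p, p ∉ box (C := C) M c → h p = 0) (hA : 0 ≤ A) (hw0 : ∀ i x, 0 ≤ w i x) :
    ∀ᵐ p, ‖h p‖ ≤ majo A M c w p := by
  filter_upwards [h1, h0] with p hp1 hp0
  by_cases hp : p ∈ box (C := C) M c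
  · refine (hp1 hp).trans_eq ?_
    unfold majo
    have e1 : ∏ f, (Icc 0 M).indicator (q M) (p.1 f) = ∏ f, q M (p.1 f) :=
      Finset.prod_congr rfl fun f _ => indicator_of_mem (hp.1 f) _
    have e2 : ∏ f, (Icc (c f) (c f + 2 * Real.pi)).indicator (fun _ => (1 : ℝ)) (p.2.1 f) = 1 :=
      Finset.prod_eq_one fun f _ => indicator_of_mem (hp.2 f) _
    rw [e1, e2, one_mul]
  · rw [hp0 hp, norm_zero]
    unfold majo
    refine mul_nonneg hA (mul_nonneg (Finset.prod_nonneg fun f _ => ?_) (mul_nonneg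
      (Finset.prod_nonneg fun f _ => ?_) (Finset.prod_nonneg fun i _ => hw0 i _)))
    · exact indicator_nonneg (fun _ _ => q_nonneg _ _) _
    · exact indicator_nonneg (fun _ _ => zero_le_one) _

/-- **(I2)** -/
theorem norm_integral_le [NormedSpace ℝ G] {h : (F → ℝ) × (F → ℝ) × (C → ℂ) → G} {A M : ℝ} {c : F → ℝ}
    {w : C → ℂ → ℝ} (hM : 1 ≤ M) (hA : 0 ≤ A) (hw : ∀ i, Integrable (w i))
    (hw0 : ∀ i x, 0 ≤ w i x)
    (h1 : ∀ᵐ p, p ∈ box (C := C) M c → ‖h p‖ ≤ A * ((∏ f, q M (p.1 f)) * ∏ i, w i (p.2.2 i)))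
    (h0 : ∀ᵐ p, p ∉ box (C := C) M c → h p = 0) :
    ‖∫ p, h p‖ ≤ A * (4 * Real.pi) ^ Fintype.card F * ∏ i, ∫ x, w i x :=
  (norm_integral_le_of_norm_le (integrable_majo A M c hw)
    (norm_le_majo h1 h0 hA hw0)).trans (integral_majo_le hA hM c hw0)

theorem integrable_of_le {h : (F → ℝ) × (F → ℝ) × (C → ℂ) → G} {A M : ℝ} {c : F → ℝ}
    {w : C → ℂ → ℝ} (hA : 0 ≤ A) (hw : ∀ i, Integrable (w i)) (hw0 : ∀ i x, 0 ≤ w i x)
    (h1 : ∀ᵐ p, p ∈ box (C := C) M c → ‖h p‖ ≤ A * ((∏ f, q M (p.1 f)) * ∏ i, w i (p.2.2 i)))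
    (h0 : ∀ᵐ p, p ∉ box (C := C) M c → h p = 0) (hm : AEStronglyMeasurable h) : Integrable h :=
  (integrable_majo A M c hw).mono' hm (norm_le_majo h1 h0 hA hw0)

/-- The integral of the norm. -/
theorem integral_norm_le {h : (F → ℝ) × (F → ℝ) × (C → ℂ) → G} {A M : ℝ} {c : F → ℝ}
    {w : C → ℂ → ℝ} (hM : 1 ≤ M) (hA : 0 ≤ A) (hw : ∀ i, Integrable (w i))
    (hw0 : ∀ i x, 0 ≤ w i x)
    (h1 : ∀ᵐ p, p ∈ box (C := C) M c → ‖h p‖ ≤ A * ((∏ f, q M (p.1 f)) * ∏ i, w i (p.2.2 i)))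
    (h0 : ∀ᵐ p, p ∉ box (C := C) M c → h p = 0) :
    ∫ p, ‖h p‖ ≤ A * (4 * Real.pi) ^ Fintype.card F * ∏ i, ∫ x, w i x :=
  (integral_mono_of_nonneg (.of_forall fun _ => norm_nonneg _) (integrable_majo A M c hw)
    (norm_le_majo h1 h0 hA hw0)).trans (integral_majo_le hA hM c hw0)

end Region

/-! ## (I3) the core weight -/

section Core

variable {κ : Type*} [Fintype κ]

/-- The weight of a core point. -/
def wt (b : κ → ℂ) (x : ℂ) : ℝ := ((1 + ‖x‖) ^ 4)⁻¹ * ∏ k, (1 + ‖x - b k‖⁻¹)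

theorem wt_nonneg (b : κ → ℂ) (x : ℂ) : 0 ≤ wt b x := by
  refine mul_nonneg (by positivity) (Finset.prod_nonneg fun k _ => by positivity)

theorem measurable_wt (b : κ → ℂ) : Measurable (wt b) := by
  unfold wt
  refine Measurable.mul (by fun_prop) (Finset.measurable_fun_prod _ fun k _ => ?_)
  exact measurable_const.add (measurable_norm.comp (measurable_id.sub_const _)).inv

/-- The singularity at one root. -/
def g1 (x : ℂ) : ℝ := (Metric.ball (0 : ℂ) 1).indicator (fun x => ‖x‖⁻¹) x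

theorem g1_nonneg (x : ℂ) : 0 ≤ g1 x := indicator_nonneg (fun _ _ => by positivity) x

theorem inv_norm_le (x : ℂ) : ‖x‖⁻¹ ≤ 1 + g1 x := by
  by_cases h : x ∈ Metric.ball (0 : ℂ) 1
  · rw [g1, indicator_of_mem h]; linarith
  · rw [g1, indicator_of_notMem h, add_zero]
    rw [Metric.mem_ball, dist_zero_right, not_lt] at h
    exact inv_le_one_of_one_le₀ h

theorem integrable_g1 : Integrable g1 := by
  refine (integrable_indicator_iff Metric.isOpen_ball.measurableSet).2 ?_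
  refine (integrableOn_fun_norm_addHaar (volume : Measure ℂ) (f := fun r : ℝ => r⁻¹)).2 ?_
  rw [Complex.finrank_real_complex]
  have : IntegrableOn (fun _ : ℝ => (1 : ℝ)) (Ioo 0 1) := by
    refine integrableOn_const ?_
    simp
  refine this.congr_fun (fun y hy => ?_) measurableSet_Ioo
  have : y ≠ 0 := hy.1.ne'
  simp [this]

theorem integrable_jap : Integrable fun x : ℂ => ((1 + ‖x‖) ^ 4)⁻¹ := by
  have h : Integrable fun x : ℂ => (1 + ‖x‖) ^ (-(4 : ℝ)) :=
    integrable_one_add_norm (by rw [Complex.finrank_real_complex]; norm_num)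
  refine h.congr (.of_forall fun x => ?_)
  have : (0 : ℝ) ≤ 1 + ‖x‖ := by positivity
  simp only
  rw [Real.rpow_neg this, show (4 : ℝ) = ((4 : ℕ) : ℝ) by norm_num, Real.rpow_natCast]

/-- The majorant of the core weight. -/
def mj (dl : ℝ) (b : κ → ℂ) (x : ℂ) : ℝ :=
  (1 + 2 / dl) ^ Fintype.card κ *
    ((1 + Fintype.card κ) * ((1 + ‖x‖) ^ 4)⁻¹ + ∑ k, g1 (x - b k))

theorem prod_le {dl : ℝ} (hd : 0 < dl) {b : κ → ℂ} (hb : ∀ k l, k ≠ l → dl ≤ ‖b k - b l‖)
    (x : ℂ) : ∏ k, (1 + ‖x - b k‖⁻¹) ≤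
      (1 + 2 / dl) ^ Fintype.card κ * (1 + ∑ k, ‖x - b k‖⁻¹) := by
  classical
  have hL : (1 : ℝ) ≤ 1 + 2 / dl := by
    have : 0 < 2 / dl := by positivity
    linarith
  have hfar : ∀ k, dl / 2 ≤ ‖x - b k‖ → 1 + ‖x - b k‖⁻¹ ≤ 1 + 2 / dl := by
    intro k hk
    have : ‖x - b k‖⁻¹ ≤ (dl / 2)⁻¹ := inv_anti₀ (by positivity) hk
    rw [inv_div] at this
    linarith
  have hs : 0 ≤ ∑ k, ‖x - b k‖⁻¹ := Finset.sum_nonneg fun k _ => by positivity
  by_cases h : ∀ k, dl / 2 ≤ ‖x - b k‖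
  · calc ∏ k, (1 + ‖x - b k‖⁻¹) ≤ ∏ _k : κ, (1 + 2 / dl) :=
          Finset.prod_le_prod (fun k _ => by positivity) fun k _ => hfar k (h k)
      _ = (1 + 2 / dl) ^ Fintype.card κ * 1 := by simp
      _ ≤ _ := by gcongr; linarith
  · push Not at h
    obtain ⟨k0, hk0⟩ := h
    have hoth : ∀ k, k ≠ k0 → dl / 2 ≤ ‖x - b k‖ := by
      intro k hk
      have h1 := hb k k0 hk
      have h2 : ‖b k - b k0‖ ≤ ‖x - b k‖ + ‖x - b k0‖ := by
        have : b k - b k0 = (x - b k0) - (x - b k) := by ring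
        rw [this, add_comm]
        exact norm_sub_le _ _
      linarith
    rw [← Finset.mul_prod_erase Finset.univ _ (Finset.mem_univ k0)]
    have h1 : ∏ k ∈ Finset.univ.erase k0, (1 + ‖x - b k‖⁻¹) ≤ (1 + 2 / dl) ^ Fintype.card κ := by
      calc ∏ k ∈ Finset.univ.erase k0, (1 + ‖x - b k‖⁻¹)
          ≤ ∏ _k ∈ Finset.univ.erase k0, (1 + 2 / dl) :=
            Finset.prod_le_prod (fun k _ => by positivity) fun k hk =>
              hfar k (hoth k (Finset.ne_of_mem_erase hk))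
        _ = (1 + 2 / dl) ^ (Finset.univ.erase k0).card := by simp
        _ ≤ (1 + 2 / dl) ^ Fintype.card κ :=
            pow_le_pow_right₀ hL (Finset.card_le_univ _)
    have h2 : 1 + ‖x - b k0‖⁻¹ ≤ 1 + ∑ k, ‖x - b k‖⁻¹ := by
      gcongr
      exact Finset.single_le_sum (f := fun k => ‖x - b k‖⁻¹) (fun k _ => by positivity)
        (Finset.mem_univ k0)
    calc (1 + ‖x - b k0‖⁻¹) * ∏ k ∈ Finset.univ.erase k0, (1 + ‖x - b k‖⁻¹)
        ≤ (1 + ∑ k, ‖x - b k‖⁻¹) * (1 + 2 / dl) ^ Fintype.card κ := by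
          refine mul_le_mul h2 h1 (Finset.prod_nonneg fun k _ => by positivity) (by positivity)
      _ = _ := mul_comm _ _

theorem wt_le_mj {dl : ℝ} (hd : 0 < dl) {b : κ → ℂ} (hb : ∀ k l, k ≠ l → dl ≤ ‖b k - b l‖)
    (x : ℂ) : wt b x ≤ mj dl b x := by
  have hj0 : 0 ≤ ((1 + ‖x‖) ^ 4)⁻¹ := by positivity
  have hj1 : ((1 + ‖x‖) ^ 4)⁻¹ ≤ 1 :=
    inv_le_one_of_one_le₀ (one_le_pow₀ (by linarith [norm_nonneg x]))
  have hL : 0 ≤ (1 + 2 / dl) ^ Fintype.card κ := by positivity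
  have h1 : 1 + ∑ k, ‖x - b k‖⁻¹ ≤ (1 + Fintype.card κ) + ∑ k, g1 (x - b k) := by
    have : ∑ k, ‖x - b k‖⁻¹ ≤ ∑ k, (1 + g1 (x - b k)) :=
      Finset.sum_le_sum fun k _ => inv_norm_le _
    rw [Finset.sum_add_distrib] at this
    simp only [Finset.sum_const, Finset.card_univ, nsmul_eq_mul, mul_one] at this
    linarith
  have hg : 0 ≤ ∑ k, g1 (x - b k) := Finset.sum_nonneg fun k _ => g1_nonneg _
  calc wt b x ≤ ((1 + ‖x‖) ^ 4)⁻¹ *
        ((1 + 2 / dl) ^ Fintype.card κ * (1 + ∑ k, ‖x - b k‖⁻¹)) :=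
        mul_le_mul_of_nonneg_left (prod_le hd hb x) hj0
    _ ≤ ((1 + ‖x‖) ^ 4)⁻¹ *
        ((1 + 2 / dl) ^ Fintype.card κ * ((1 + Fintype.card κ) + ∑ k, g1 (x - b k))) := by
        gcongr
    _ = (1 + 2 / dl) ^ Fintype.card κ * ((1 + Fintype.card κ) * ((1 + ‖x‖) ^ 4)⁻¹ +
          ((1 + ‖x‖) ^ 4)⁻¹ * ∑ k, g1 (x - b k)) := by ring
    _ ≤ (1 + 2 / dl) ^ Fintype.card κ * ((1 + Fintype.card κ) * ((1 + ‖x‖) ^ 4)⁻¹ +
          1 * ∑ k, g1 (x - b k)) := by gcongr
    _ = mj dl b x := by rw [one_mul, mj]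

theorem integrable_mj (dl : ℝ) (b : κ → ℂ) : Integrable (mj dl b) := by
  refine Integrable.const_mul (Integrable.add (integrable_jap.const_mul _) ?_) _
  exact integrable_finsetSum _ fun k _ => integrable_g1.comp_sub_right (b k)

/-- The constant of (I3). -/
def C0 (n : ℕ) (dl : ℝ) : ℝ :=
  (1 + 2 / dl) ^ n * ((1 + n) * (∫ x : ℂ, ((1 + ‖x‖) ^ 4)⁻¹) + n * ∫ x, g1 x)

theorem integral_mj (dl : ℝ) (b : κ → ℂ) : ∫ x, mj dl b x = C0 (Fintype.card κ) dl := by
  unfold mj C0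
  rw [integral_const_mul, integral_add (integrable_jap.const_mul _)
    (integrable_finsetSum _ fun k _ => integrable_g1.comp_sub_right (b k)),
    integral_const_mul, integral_finsetSum _ fun k _ => integrable_g1.comp_sub_right (b k)]
  have : ∀ k : κ, ∫ x, g1 (x - b k) = ∫ x, g1 x := fun k => integral_sub_right_eq_self g1 (b k)
  simp only [this, Finset.sum_const, Finset.card_univ, nsmul_eq_mul]

/-- **(I3)**, integrability -/
theorem integrable_wt {dl : ℝ} (hd : 0 < dl) {b : κ → ℂ}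
    (hb : ∀ k l, k ≠ l → dl ≤ ‖b k - b l‖) : Integrable (wt b) := by
  refine (integrable_mj dl b).mono' (measurable_wt b).aestronglyMeasurable
    (.of_forall fun x => ?_)
  rw [Real.norm_of_nonneg (wt_nonneg b x)]
  exact wt_le_mj hd hb x

/-- **(I3)** -/
theorem integral_wt_le {dl : ℝ} (hd : 0 < dl) {b : κ → ℂ}
    (hb : ∀ k l, k ≠ l → dl ≤ ‖b k - b l‖) : ∫ x, wt b x ≤ C0 (Fintype.card κ) dl := by
  rw [← integral_mj dl b]
  exact integral_mono (integrable_wt hd hb) (integrable_mj dl b) fun x => wt_le_mj hd hb x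

theorem integral_wt_nonneg (b : κ → ℂ) : 0 ≤ ∫ x, wt b x := integral_nonneg (wt_nonneg b)

/-- The same with all core points: the product of the weights. -/
theorem prod_integral_wt_le {C : Type*} [Fintype C] {dl : ℝ} (hd : 0 < dl) {b : κ → ℂ}
    (hb : ∀ k l, k ≠ l → dl ≤ ‖b k - b l‖) :
    ∏ _i : C, ∫ x, wt b x ≤ C0 (Fintype.card κ) dl ^ Fintype.card C := by
  rw [Finset.prod_const, Finset.card_univ]
  exact pow_le_pow_left₀ (integral_wt_nonneg b) (integral_wt_le hd hb) _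

end Core

end

end Vale.Agent.P273.H120
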