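import Vale.Agent.P273.H852.RegionDefs

/-!
# P273 (helper120): the product of the sheet measures is the sum over all choices of sheets

`Measure.pi (fun _ => sheetMeas s μ) = ∑ σ, map (gam s σ) (Measure.pi fun _ => μ)`, and every `gam s σ`
is a measurable embedding, so that integrals of arbitrary functions can be transported.
-/

open MeasureTheory Set

namespace Vale.Agent.P273.H120

open H852

noncomputable section

set_option linter.unusedSectionVars false

/-- The point of the curve over `x` on the sheet `σ`. -/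
def g0 (s : ℂ → ℂ) (σ : Bool) (x : ℂ) : ℂ × ℂ := (x, (if σ then 1 else -1) * s x)

theorem measurable_g0 {s : ℂ → ℂ} (hs : Measurable s) (σ : Bool) : Measurable (g0 s σ) :=
  measurable_id.prodMk (measurable_const.mul hs)

theorem sheetMeas_eq (s : ℂ → ℂ) (μ : Measure ℂ) :
    sheetMeas s μ = ∑ σ : Bool, μ.map (g0 s σ) := by
  have h1 : g0 s true = fun x => (x, s x) := by funext x; simp [g0]
  have h2 : g0 s false = fun x => (x, - s x) := by funext x; simp [g0]
  rw [Fintype.sum_bool, h1, h2]
  rfl

variable {ι : Type*} [Fintype ι] [DecidableEq ι]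

/-- The points of the curve over `x` on the sheets `σ`. -/
def gam (s : ℂ → ℂ) (σ : ι → Bool) (x : ι → ℂ) (j : ι) : ℂ × ℂ := g0 s (σ j) (x j)

theorem measurable_gam {s : ℂ → ℂ} (hs : Measurable s) (σ : ι → Bool) :
    Measurable (gam s σ) :=
  measurable_pi_lambda _ fun j => (measurable_g0 hs (σ j)).comp (measurable_pi_apply j)

theorem range_gam (s : ℂ → ℂ) (σ : ι → Bool) :
    range (gam s σ) = {P : ι → ℂ × ℂ | ∀ j, (P j).2 = (if σ j then 1 else -1) * s (P j).1} := by
  ext P
  constructor
  · rintro ⟨x, rfl⟩ j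
    rfl
  · intro hP
    refine ⟨fun j => (P j).1, ?_⟩
    funext j
    exact Prod.ext rfl (hP j).symm

theorem measurableEmbedding_gam {s : ℂ → ℂ} (hs : Measurable s) (σ : ι → Bool) :
    MeasurableEmbedding (gam s σ) := by
  refine MeasurableEmbedding.of_measurable_inverse (g := fun P j => (P j).1)
    (measurable_gam hs σ) ?_ ?_ fun x => rfl
  · rw [range_gam]
    have : {P : ι → ℂ × ℂ | ∀ j, (P j).2 = (if σ j then 1 else -1) * s (P j).1} =
        ⋂ j, {P : ι → ℂ × ℂ | (P j).2 = (if σ j then 1 else -1) * s (P j).1} := by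
      ext P
      simp only [mem_iInter]
      rfl
    rw [this]
    refine MeasurableSet.iInter fun j => measurableSet_eq_fun ?_ ?_
    · exact measurable_snd.comp (measurable_pi_apply j)
    · exact measurable_const.mul (hs.comp (measurable_fst.comp (measurable_pi_apply j)))
  · exact measurable_pi_lambda _ fun j => measurable_fst.comp (measurable_pi_apply j)

theorem sigmaFinite_sheetMeas {s : ℂ → ℂ} (hs : Measurable s) (μ : Measure ℂ)
    [SigmaFinite μ] : SigmaFinite (sheetMeas s μ) := by
  have e : ∀ σ : Bool, MeasurableEmbedding (g0 s σ) := by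
    intro σ
    refine MeasurableEmbedding.of_measurable_inverse (g := Prod.fst)
      (measurable_g0 hs σ) ?_ measurable_fst fun x => rfl
    have : range (g0 s σ) = {P : ℂ × ℂ | P.2 = (if σ then 1 else -1) * s P.1} := by
      ext P
      constructor
      · rintro ⟨x, rfl⟩; rfl
      · intro hP; exact ⟨P.1, Prod.ext rfl hP.symm⟩
    rw [this]
    exact measurableSet_eq_fun measurable_snd (measurable_const.mul (hs.comp measurable_fst))
  rw [sheetMeas_eq, Fintype.sum_bool]
  have i1 : SigmaFinite (μ.map (g0 s true)) := (e true).sigmaFinite_map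
  have i2 : SigmaFinite (μ.map (g0 s false)) := (e false).sigmaFinite_map
  infer_instance

/-- **The product of the sheet measures.** -/
theorem pi_sheetMeas {s : ℂ → ℂ} (hs : Measurable s) (μ : Measure ℂ) [SigmaFinite μ] :
    Measure.pi (fun _ : ι => sheetMeas s μ) =
      ∑ σ : ι → Bool, (Measure.pi fun _ : ι => μ).map (gam s σ) := by
  have := sigmaFinite_sheetMeas hs μ
  refine Measure.pi_eq fun t ht => ?_
  rw [Measure.finsetSum_apply]
  have h1 : ∀ σ : ι → Bool, (Measure.pi fun _ : ι => μ).map (gam s σ) (univ.pi t) =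
      ∏ j, μ.map (g0 s (σ j)) (t j) := by
    intro σ
    rw [Measure.map_apply (measurable_gam hs σ) (MeasurableSet.univ_pi ht)]
    have : gam s σ ⁻¹' univ.pi t = univ.pi fun j => g0 s (σ j) ⁻¹' t j := by
      ext x
      simp only [mem_preimage, mem_univ_pi, gam]
    rw [this, Measure.pi_pi]
    refine Finset.prod_congr rfl fun j _ => ?_
    rw [Measure.map_apply (measurable_g0 hs _) (ht j)]
  simp only [h1]
  have h2 : ∀ j, sheetMeas s μ (t j) = ∑ σ : Bool, μ.map (g0 s σ) (t j) := by
    intro j
    rw [sheetMeas_eq, Measure.finsetSum_apply]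
  simp only [h2]
  rw [Finset.prod_univ_sum, Fintype.piFinset_univ]

/-- Integrals of arbitrary functions over the product of the sheet measures. -/
theorem lintegral_pi_sheetMeas {s : ℂ → ℂ} (hs : Measurable s) (μ : Measure ℂ) [SigmaFinite μ]
    (f : (ι → ℂ × ℂ) → ENNReal) :
    ∫⁻ P, f P ∂(Measure.pi fun _ : ι => sheetMeas s μ) =
      ∑ σ : ι → Bool, ∫⁻ x, f (gam s σ x) ∂(Measure.pi fun _ : ι => μ) := by
  rw [pi_sheetMeas hs, lintegral_finsetSum_measure]
  exact Finset.sum_congr rfl fun σ _ => (measurableEmbedding_gam hs σ).lintegral_map f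

end

end Vale.Agent.P273.H120
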