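import Vale.Agent.P273.H120.Rts
import Vale.Agent.P273.H120.Sheets
import Vale.Agent.P273.H120.NegI
import Vale.Agent.P273.H811.Bulk

/-!
# P273, row NEG-I (helper120), (I4): the fibre integral is bounded by the integrals over the regions

* `ig X Θ T b v P`: one sheet of the integrand at the point `P` of the 14-th power of the curve;
* `enorm_PhiF_le` (I4a): bound by the integral over the product of the sheet measures;
* `enorm_PhiF_le_regions` (I4b): bound by the sum over the regions;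
* `abs_PhiF_le` (I4c): bound by the constants of (I1)-(I3).
-/

open MeasureTheory Set Filter Topology
open scoped ENNReal

namespace Vale.Agent.P273.H120

open H95 H681 H973 H852

noncomputable section

/-- All marks in the affine chart. -/
abbrev S0 : L → Bool := fun _ => false

/-- The 28 vertical vectors and the two horizontal ones. -/
def vv (v : Fin 2 → C6) : Fin (16 + 14) → E := H811.vec (n := 28) (k := 2) vb v

/-- One sheet of the integrand. -/
def ig2 (X : Ext) (Θ : Gauge) (T : MT) (b : C6) (v : Fin 2 → C6) (x y : L → ℂ) : ℝ :=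
  wedgeT (GR X.G S0 (b, x) y) T (fun i => Θ.th i S0 (b, x) y) (vv v)

/-- One sheet of the integrand, at the point `P` of the 14-th power of the curve. -/
def ig (X : Ext) (Θ : Gauge) (T : MT) (b : C6) (v : Fin 2 → C6) (P : L → ℂ × ℂ) : ℝ :=
  ig2 X Θ T b v (fun j => (P j).1) fun j => (P j).2

/-! ## Measurability on the curve -/

/-- The points of the curve, no mark at a root, the positions distinct. -/
def Zc (a : C6) : Set (L → ℂ × ℂ) :=
  {P | (∀ j, (P j).2 ^ 2 = sx a (P j).1 ∧ (P j).2 ≠ 0) ∧ ∀ i j, i ≠ j → (P i).1 ≠ (P j).1}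

theorem measurableSet_Zc (a : C6) : MeasurableSet (Zc a) := by
  have h1 : ∀ j : L, Measurable fun P : L → ℂ × ℂ => (P j).1 := fun j =>
    measurable_fst.comp (measurable_pi_apply j)
  have h2 : ∀ j : L, Measurable fun P : L → ℂ × ℂ => (P j).2 := fun j =>
    measurable_snd.comp (measurable_pi_apply j)
  have e : Zc a = (⋂ j, {P : L → ℂ × ℂ | (P j).2 ^ 2 = sx a (P j).1} ∩
      {P : L → ℂ × ℂ | (P j).2 = 0}ᶜ) ∩
      ⋂ i : L, ⋂ j : L, ⋂ _ : i ≠ j, {P : L → ℂ × ℂ | (P i).1 = (P j).1}ᶜ := by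
    ext P
    simp only [Zc, mem_inter_iff, mem_iInter, mem_compl_iff]
    rfl
  rw [e]
  refine MeasurableSet.inter (MeasurableSet.iInter fun j => MeasurableSet.inter
    (measurableSet_eq_fun ((h2 j).pow_const 2) ((continuous_sx a).measurable.comp (h1 j)))
    (measurableSet_eq_fun (h2 j) measurable_const).compl)
    (MeasurableSet.iInter fun i => MeasurableSet.iInter fun j => MeasurableSet.iInter fun _ =>
      (measurableSet_eq_fun (h1 i) (h1 j)).compl)

theorem pol_S0 (a : C6) (j : L) (z : ℂ) : pol (S0 j) a z = sx a z := by simp [pol]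

theorem onC_of_mem {a : C6} {P : L → ℂ × ℂ} (hP : P ∈ Zc a) :
    OnC S0 a (fun j => (P j).1) fun j => (P j).2 := fun j => by
  rw [pol_S0]
  exact hP.1 j

theorem sep_of_mem {a : C6} {P : L → ℂ × ℂ} (hP : P ∈ Zc a) :
    Sep S0 (fun j => (P j).1) fun j => (P j).2 := by
  intro i j hij _ hs
  refine hP.2 i j hij ?_
  have h : (P i).1 = (P j).1 ∧ (P i).2 = (P j).2 := by simpa [Same] using hs
  exact h.1

theorem near_cont {M : Type} [NormedAddCommGroup M] [NormedSpace ℝ M] {c : C6 → C6}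
    {G : E → (L → ℂ) → M} {Pr : (E → M) → E → Prop} {a : C6} {P0 : L → ℂ × ℂ}
    (h : Near c S0 G Pr (a, fun j => (P0 j).1) fun j => (P0 j).2)
    {Z : Set (L → ℂ × ℂ)} (hZ : ∀ P ∈ Z, ∀ j, (P j).2 ^ 2 = sx (c a) (P j).1) (h0 : P0 ∈ Z) :
    ContinuousWithinAt (fun P : L → ℂ × ℂ => G (a, fun j => (P j).1) fun j => (P j).2) Z P0 := by
  obtain ⟨W, g, r, hW, hm, hr, hg, -, hG⟩ := h
  have hc : Continuous fun P : L → ℂ × ℂ => ((a, fun j => (P j).1) : E) := by fun_prop
  have hg0 : ContinuousAt g (a, fun j => (P0 j).1) :=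
    hg.continuousOn.continuousAt (hW.mem_nhds hm)
  have h1 : ContinuousAt (fun P : L → ℂ × ℂ => g (a, fun j => (P j).1)) P0 :=
    ContinuousAt.comp (f := fun P : L → ℂ × ℂ => ((a, fun j => (P j).1) : E)) hg0
      hc.continuousAt
  have e1 : ∀ᶠ P : L → ℂ × ℂ in 𝓝 P0, ((a, fun j => (P j).1) : E) ∈ W :=
    hc.continuousAt.eventually_mem (hW.mem_nhds hm)
  have e2 : ∀ᶠ P : L → ℂ × ℂ in 𝓝 P0, ∀ j, ‖(P j).2 - (P0 j).2‖ < r := by
    rw [eventually_all]
    intro j
    have hj : Continuous fun P : L → ℂ × ℂ => ‖(P j).2 - (P0 j).2‖ := by fun_prop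
    have := hj.continuousAt (x := P0)
    exact this.eventually (gt_mem_nhds (by simpa using hr))
  refine h1.continuousWithinAt.congr_of_eventuallyEq ?_ ?_
  · filter_upwards [nhdsWithin_le_nhds e1, nhdsWithin_le_nhds e2, self_mem_nhdsWithin]
      with P hP1 hP2 hP3
    exact hG _ hP1 _ (fun j => by rw [pol_S0]; exact hZ P hP3 j) hP2
  · exact hG _ hm _ (fun j => by rw [pol_S0]; exact hZ P0 h0 j) fun j => by simpa using hr

theorem isCl_col4 (a : Fin 4) : IsCl (col4 a) := by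
  fin_cases a <;> simp [IsCl, col4, Fin.sum_univ_six] <;> norm_num

theorem cwa_sum {X ι : Type*} [TopologicalSpace X] {s : Set X} {x0 : X} (t : Finset ι)
    {f : ι → X → ℝ} (h : ∀ i ∈ t, ContinuousWithinAt (f i) s x0) :
    ContinuousWithinAt (fun x => ∑ i ∈ t, f i x) s x0 := tendsto_finsetSum t h

theorem ig_continuousOn (X : Ext) (Θ : Gauge) (T : MT) {b : C6} (hb : b ∈ H681.XX)
    (v : Fin 2 → C6) : ContinuousOn (ig X Θ T b v) (Zc (rts b)) := by
  intro P0 hP0
  have hG : ContinuousWithinAt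
      (fun P : L → ℂ × ℂ => X.G S0 (rts b, fun j => (P j).1) fun j => (P j).2)
      (Zc (rts b)) P0 :=
    near_cont (c := id) (X.reg S0 _ _ (rts_mem_K6_of_XX hb) (onC_of_mem hP0) (sep_of_mem hP0))
      (fun P hP j => (hP.1 j).1) hP0
  have hθ : ∀ (j : L) (ξ : Fin 6 → ℝ), IsCl ξ → ContinuousWithinAt
      (fun P : L → ℂ × ℂ => Θ.θ j ξ S0 (b, fun j => (P j).1) fun j => (P j).2)
      (Zc (rts b)) P0 := fun j ξ hξ =>
    near_cont (c := rts) (Θ.reg j ξ S0 _ _ hξ hb (onC_of_mem hP0))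
      (fun P hP j => (hP.1 j).1) hP0
  have hG' : ∀ w : Fin 16 → E, ContinuousWithinAt
      (fun P : L → ℂ × ℂ => GR X.G S0 (b, fun j => (P j).1) (fun j => (P j).2) w)
      (Zc (rts b)) P0 := by
    intro w
    have h := (ContinuousAlternatingMap.apply ℝ E ℝ (fun i =>
      ((fderiv ℝ rts b).prodMap (ContinuousLinearMap.id ℝ (L → ℂ))) (w i))).continuous
        |>.continuousAt.comp_continuousWithinAt hG
    exact h
  have hθ' : ∀ (i : Fin 14) (w : E), ContinuousWithinAt
      (fun P : L → ℂ × ℂ => Θ.th i S0 (b, fun j => (P j).1) (fun j => (P j).2) w)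
      (Zc (rts b)) P0 := by
    intro i w
    refine continuousWithinAt_pi.2 fun a => ?_
    exact (hθ (mrk i) (col4 a) (isCl_col4 a)).clm_apply continuousWithinAt_const
  have e : ig X Θ T b v = fun P : L → ℂ × ℂ => (((16 : ℕ).factorial : ℝ)⁻¹) •
      ∑ σ : Equiv.Perm (Fin (16 + 14)), Equiv.Perm.sign σ •
        (GR X.G S0 (b, fun j => (P j).1) (fun j => (P j).2)
          (fun i => vv v (σ (Fin.castAdd 14 i))) •
          T (fun j => Θ.th j S0 (b, fun j => (P j).1) (fun j => (P j).2)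
            (vv v (σ (Fin.natAdd 16 j))))) := by
    funext P
    exact wedgeT_apply _ _ _ _
  rw [e]
  have hs : ∀ σ : Equiv.Perm (Fin (16 + 14)), ContinuousWithinAt (fun P : L → ℂ × ℂ =>
      Equiv.Perm.sign σ • (GR X.G S0 (b, fun j => (P j).1) (fun j => (P j).2)
          (fun i => vv v (σ (Fin.castAdd 14 i))) •
          T (fun j => Θ.th j S0 (b, fun j => (P j).1) (fun j => (P j).2)
            (vv v (σ (Fin.natAdd 16 j)))))) (Zc (rts b)) P0 := by
    intro σ
    have h1 : ContinuousWithinAt (fun P : L → ℂ × ℂ =>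
        GR X.G S0 (b, fun j => (P j).1) (fun j => (P j).2)
            (fun i => vv v (σ (Fin.castAdd 14 i))) •
            T (fun j => Θ.th j S0 (b, fun j => (P j).1) (fun j => (P j).2)
              (vv v (σ (Fin.natAdd 16 j))))) (Zc (rts b)) P0 := by
      refine (hG' _).smul ?_
      exact T.cont.continuousAt.comp_continuousWithinAt
        (continuousWithinAt_pi.2 fun j => hθ' j _)
    rcases Int.units_eq_one_or (Equiv.Perm.sign σ) with h | h
    · simp only [h, one_smul]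
      exact h1
    · simp only [h, Units.neg_smul, one_smul]
      exact h1.neg
  exact (cwa_sum Finset.univ fun σ _ => hs σ).const_smul (((16 : ℕ).factorial : ℝ)⁻¹)

/-- The integrand on the good points, zero elsewhere: a measurable function. -/
theorem measurable_indicator_ig (X : Ext) (Θ : Gauge) (T : MT) {b : C6} (hb : b ∈ H681.XX)
    (v : Fin 2 → C6) : Measurable ((Zc (rts b)).indicator (ig X Θ T b v)) := by
  have hZ := measurableSet_Zc (rts b)
  have hc := ig_continuousOn X Θ T hb v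
  classical
  rw [← Set.piecewise_eq_indicator]
  have h1 : Measurable ((Zc (rts b)).domRestrict (ig X Θ T b v)) :=
    (continuousOn_iff_continuous_domRestrict.1 hc).measurable
  have h2 : Measurable ((Zc (rts b))ᶜ.domRestrict (0 : (L → ℂ × ℂ) → ℝ)) := measurable_const
  refine measurable_of_restrict_of_restrict_compl hZ ?_ ?_
  · rw [Set.domRestrict_piecewise]
    exact h1
  · rw [Set.domRestrict_piecewise_compl]
    exact h2

/-! ## (I4a) -/

theorem measurable_csq : Measurable csq := by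
  unfold csq
  exact measurable_id.pow_const _

theorem csq_sq (z : ℂ) : csq z ^ 2 = z := by
  have h := Complex.cpow_nat_inv_pow z (n := 2) (by norm_num)
  simpa [csq, one_div] using h

/-- The branch of the square root of the sextic with roots `b`. -/
def br (b : C6) (x : ℂ) : ℂ := csq (sx (rts b) x)

theorem measurable_br (b : C6) : Measurable (br b) :=
  measurable_csq.comp (continuous_sx _).measurable

theorem br_sq (b : C6) (x : ℂ) : br b x ^ 2 = sx (rts b) x := csq_sq _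

/-- Almost all positions. -/
theorem ae_good (b : C6) : ∀ᵐ x : L → ℂ, (∀ j k, x j ≠ b k) ∧ ∀ i j, i ≠ j → x i ≠ x j := by
  refine Filter.Eventually.and ?_ ?_
  · rw [ae_all_iff]
    intro j
    rw [ae_all_iff]
    intro k
    have h : (volume : Measure (L → ℂ)) {f | f j = b k} = 0 := by
      rw [volume_pi]
      exact Measure.pi_hyperplane (fun _ : L => (volume : Measure ℂ)) j (b k)
    rw [ae_iff]
    simp [h]
  · rw [ae_all_iff]
    intro i
    rw [ae_all_iff]
    intro j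
    by_cases hij : i = j
    · exact Filter.Eventually.of_forall fun x h => absurd hij h
    · let s : Submodule ℝ (L → ℂ) := LinearMap.ker
        ((LinearMap.proj (R := ℝ) (φ := fun _ : L => ℂ) i) - LinearMap.proj j)
      have hs : s ≠ ⊤ := by
        intro h
        have h1 : (Pi.single i 1 : L → ℂ) ∈ s := by rw [h]; trivial
        have h2 : (Pi.single i (1 : ℂ) : L → ℂ) i - (Pi.single i (1 : ℂ) : L → ℂ) j = 0 := h1
        rw [Pi.single_eq_same, Pi.single_eq_of_ne (Ne.symm hij)] at h2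
        norm_num at h2
      have h0 := Measure.addHaar_submodule (volume : Measure (L → ℂ)) s hs
      have h3 : ∀ᵐ x : L → ℂ, x ∉ (s : Set (L → ℂ)) := by
        rw [ae_iff]
        simpa using h0
      filter_upwards [h3] with x hx _ hxx
      exact hx (show x i - x j = 0 by rw [hxx, sub_self])

theorem gam_mem {b : C6} {x : L → ℂ} (h1 : ∀ j k, x j ≠ b k) (h2 : ∀ i j, i ≠ j → x i ≠ x j)
    (σ : L → Bool) : gam (br b) σ x ∈ Zc (rts b) := by
  refine ⟨fun j => ?_, fun i j hij => h2 i j hij⟩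
  have e : (gam (br b) σ x j).2 = (if σ j then 1 else -1) * br b (x j) := rfl
  have e1 : (gam (br b) σ x j).1 = x j := rfl
  have hsq : (if σ j = true then (1 : ℂ) else -1) ^ 2 = 1 := by split_ifs <;> norm_num
  have e2 : (gam (br b) σ x j).2 ^ 2 = sx (rts b) (x j) := by rw [e, mul_pow, hsq, br_sq, one_mul]
  refine ⟨by rw [e2, e1], fun h => ?_⟩
  rw [h] at e2
  exact sx_rts_ne_zero (h1 j) (by rw [← e2]; norm_num)

theorem aemeasurable_ig (X : Ext) (Θ : Gauge) (T : MT) {b : C6} (hb : b ∈ H681.XX)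
    (v : Fin 2 → C6) (σ : L → Bool) :
    AEMeasurable (fun x : L → ℂ => ig X Θ T b v (gam (br b) σ x)) := by
  have h := (measurable_indicator_ig X Θ T hb v).comp (measurable_gam (measurable_br b) σ)
  refine h.aemeasurable.congr ?_
  filter_upwards [ae_good b] with x hx
  exact indicator_of_mem (gam_mem hx.1 hx.2 σ) _

theorem sheet_eq (b : C6) (σ : L → Bool) (x : L → ℂ) :
    sheet S0 (b, x) σ = fun j => (gam (br b) σ x j).2 := by
  funext j
  simp [sheet, gam, g0, br, pol]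

theorem ig_gam (X : Ext) (Θ : Gauge) (T : MT) (b : C6) (v : Fin 2 → C6) (x : L → ℂ)
    (σ : L → Bool) :
    ig X Θ T b v (gam (br b) σ x) = ig2 X Θ T b v x (sheet S0 (b, x) σ) := by
  have e1 : (fun j => (gam (br b) σ x j).1) = x := rfl
  rw [sheet_eq, ig, e1]

/-- The term of `Wf` of a choice of sheets. -/
def tm (X : Ext) (Θ : Gauge) (T : MT) (b : C6) (x : L → ℂ) (σ : L → Bool) : Alt (16 + 14) E :=
  wedgeT (GR X.G S0 (b, x) (sheet S0 (b, x) σ)) T fun i => Θ.th i S0 (b, x) (sheet S0 (b, x) σ)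

theorem Wf_tm (X : Ext) (Θ : Gauge) (T : MT) (b : C6) (x : L → ℂ) :
    Wf X Θ T S0 (b, x) = ∑ σ : L → Bool, tm X Θ T b x σ := by
  rw [Wf]
  rfl

theorem sum_apply_gen {κ : Type} {n : ℕ} {M : Type} [NormedAddCommGroup M] [NormedSpace ℝ M]
    (s : Finset κ) (f : κ → Alt n M) (w : Fin n → M) :
    (∑ σ ∈ s, f σ) w = ∑ σ ∈ s, f σ w := by
  rw [ContinuousAlternatingMap.sum_apply]

theorem sum_apply_L (f : (L → Bool) → Alt (16 + 14) E) (w : Fin (16 + 14) → E) :
    (∑ σ, f σ) w = ∑ σ, f σ w := by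
  rw [sum_apply_gen]

theorem eq_sum_L (F : Alt (16 + 14) E) (f : (L → Bool) → Alt (16 + 14) E) (h : F = ∑ σ, f σ)
    (w : Fin (16 + 14) → E) : F w = ∑ σ, f σ w := by
  rw [h, sum_apply_L]

theorem Wf_apply' (X : Ext) (Θ : Gauge) (T : MT) (b : C6) (x : L → ℂ) (w : Fin (16 + 14) → E) :
    Wf X Θ T S0 (b, x) w = ∑ σ : L → Bool, tm X Θ T b x σ w :=
  eq_sum_L _ _ (Wf_tm X Θ T b x) w

theorem tm_vv (X : Ext) (Θ : Gauge) (T : MT) (b : C6) (v : Fin 2 → C6) (x : L → ℂ)
    (σ : L → Bool) : tm X Θ T b x σ (vv v) = ig X Θ T b v (gam (br b) σ x) := by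
  rw [ig_gam]
  rfl

theorem enorm_Wf_le (X : Ext) (Θ : Gauge) (T : MT) (b : C6) (v : Fin 2 → C6) (x : L → ℂ) :
    ‖Wf X Θ T S0 (b, x) (vv v)‖ₑ ≤ ∑ σ : L → Bool, ‖ig X Θ T b v (gam (br b) σ x)‖ₑ := by
  rw [Wf_apply']
  simp only [tm_vv]
  exact enorm_sum_le _ _

theorem enorm_fib_le {A B W : Type*} [NormedAddCommGroup A] [NormedSpace ℝ A]
    [NormedAddCommGroup B] [NormedSpace ℝ B] [NormedAddCommGroup W] [NormedSpace ℝ W]
    [CompleteSpace W] [MeasurableSpace B] {n k : ℕ}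
    (μ : Measure B) (e : Fin n → B) (G : A × B → (A × B) [⋀^Fin (n + k)]→L[ℝ] W) (b : A)
    (v : Fin k → A) : ‖H811.fib μ e G b v‖ₑ ≤ ∫⁻ x, ‖G (b, x) (H811.vec e v)‖ₑ ∂μ := by
  by_cases h : Integrable (fun x => H811.fixA e (G (b, x))) μ
  · have h1 := (ContinuousAlternatingMap.apply ℝ A W v).integral_comp_comm h
    have h2 : H811.fib μ e G b v = ∫ x, G (b, x) (H811.vec e v) ∂μ := h1.symm
    rw [h2]
    exact enorm_integral_le_lintegral_enorm _
  · have h2 : H811.fib μ e G b = 0 := integral_undef h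
    rw [h2]
    simp

theorem cst_apply (F : Alt (16 + 14) E) (w : Fin (16 + 14) → E) :
    (DFunLike.coe (F := Alt (28 + 2) E) F) w = F w := rfl

theorem vec_vv (v : Fin 2 → C6) : (H811.vec vb v : Fin (28 + 2) → E) = vv v := rfl

theorem cst_vv (F : Alt (16 + 14) E) (v : Fin 2 → C6) :
    (DFunLike.coe (F := Alt (28 + 2) E) F) (H811.vec vb v : Fin (28 + 2) → E) = F (vv v) := by
  rw [vec_vv]

theorem Wg_vv0 (G : Alt (28 + 2) E) (F : Alt (16 + 14) E) (h : G = F) (v : Fin 2 → C6) :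
    G (H811.vec vb v : Fin (28 + 2) → E) = F (vv v) := by
  rw [h, cst_vv]

theorem Wg_Wf (X : Ext) (Θ : Gauge) (T : MT) (b : C6) (x : L → ℂ) :
    H811.Wg X Θ T S0 (b, x) = (Wf X Θ T S0 (b, x) : Alt (28 + 2) E) := rfl

theorem Wg_vv (X : Ext) (Θ : Gauge) (T : MT) (b : C6) (v : Fin 2 → C6) (x : L → ℂ) :
    H811.Wg X Θ T S0 (b, x) (H811.vec vb v) = Wf X Θ T S0 (b, x) (vv v) :=
  Wg_vv0 _ _ (Wg_Wf X Θ T b x) v

theorem enorm_PhiF_le0 (X : Ext) (Θ : Gauge) (T : MT) (b : C6) (v : Fin 2 → C6) :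
    ‖PhiF X Θ T b v‖ₑ ≤ ∫⁻ x : L → ℂ, ‖H811.Wg X Θ T S0 (b, x) (H811.vec vb v)‖ₑ := by
  rw [H811.phiF_eq]
  exact enorm_fib_le (n := 28) (k := 2) volume vb (H811.Wg X Θ T S0) b v

theorem lintegral_finsetSum_L {κ : Type} [Fintype κ] {A : Type} [MeasurableSpace A]
    (μ : Measure A) (g : A → ℝ≥0∞) (f : κ → A → ℝ≥0∞) (hf : ∀ σ, AEMeasurable (f σ) μ)
    (h : ∀ x, g x ≤ ∑ σ, f σ x) : ∫⁻ x, g x ∂μ ≤ ∑ σ, ∫⁻ x, f σ x ∂μ := by
  rw [← lintegral_finsetSum' _ fun σ _ => hf σ]
  exact lintegral_mono h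

/-- **(I4a)** -/
theorem enorm_PhiF_le (X : Ext) (Θ : Gauge) (T : MT) {b : C6} (hb : b ∈ H681.XX)
    (v : Fin 2 → C6) : ‖PhiF X Θ T b v‖ₑ ≤
      ∫⁻ P, ‖ig X Θ T b v P‖ₑ ∂(Measure.pi fun _ : L => sheetMeas (br b) volume) := by
  refine (enorm_PhiF_le0 X Θ T b v).trans ?_
  simp only [Wg_vv]
  rw [lintegral_pi_sheetMeas (measurable_br b)]
  exact lintegral_finsetSum_L _ _ (fun σ x => ‖ig X Θ T b v (gam (br b) σ x)‖ₑ)
    (fun σ => (aemeasurable_ig X Θ T hb v σ).enorm) fun x => enorm_Wf_le X Θ T b v x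

end

end Vale.Agent.P273.H120
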