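import Vale.Agent.P273.H120.NegI4
import Vale.Agent.P273.H852.Far

/-!
# P273, row NEG-I (helper120), (I4b), (I4c): the fibre integral and the regions

* `lintegral_region_le`: integral over the curves ≤ sum over regions and zones;
* `lintegral_fmeas_le`: one region;
* `abs_PhiF_le`: **(I4c)** the bound of `PhiF` from the bound of the integrand in every region.
-/

open MeasureTheory Set Filter Topology
open scoped ENNReal

namespace Vale.Agent.P273.H120

open H95 H681 H973 H852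

set_option linter.unusedSectionVars false

noncomputable section

section Regions

variable {ι K : Type*} [Fintype ι] [DecidableEq ι] [Fintype K] [DecidableEq K]

theorem lintegral_region_le {D : Necks K} (hD : D.Good) {R0 : ℝ} (hR : 0 ≤ R0)
    (g : (ι → ℂ × ℂ) → ℝ≥0∞) :
    ∫⁻ P, g P ∂(Measure.pi fun _ : ι => sheetMeas D.s volume) ≤
      ∑ R : Reg ι K, ∑ far : R.Kc → Bool,
        ∫⁻ q, ENNReal.ofReal (R.fjac D far q) * g (R.fpos D far q) ∂(R.fmeas D R0 far) := by
  rw [region_far_eq hD hR, lintegral_finsetSum_measure]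
  refine Finset.sum_le_sum fun R _ => ?_
  rw [lintegral_finsetSum_measure]
  refine Finset.sum_le_sum fun far _ => ?_
  refine (lintegral_map_le _ _).trans ?_
  exact lintegral_withDensity_le_lintegral_mul _ (R.measurable_fjac D far).ennreal_ofReal
    fun q => g (R.fpos D far q)

variable (R : Reg ι K) (D : Necks K)

theorem measurableSet_dom : MeasurableSet (R.dom D) := by
  have : R.dom D = ⋂ g : R.Gf, {u : R.Gf → ℝ | 0 < u g} ∩
      {u : R.Gf → ℝ | u g < D.Y g.1 - ∑ i, u ⟨g.1, i⟩} := by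
    ext u
    simp [Reg.dom]
  rw [this]
  refine MeasurableSet.iInter fun g => MeasurableSet.inter ?_ ?_
  · exact measurableSet_lt measurable_const (measurable_pi_apply g)
  · exact measurableSet_lt (measurable_pi_apply g)
      (measurable_const.sub (Finset.measurable_fun_sum _ fun i _ => measurable_pi_apply _))

theorem dom_le {M : ℝ} (hY : ∀ k, D.Y k ≤ M) {u : R.Gf → ℝ} (hu : u ∈ R.dom D) (g : R.Gf) :
    u g ∈ Icc 0 M := by
  refine ⟨(hu g).1.le, ?_⟩
  have h1 := (hu g).2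
  have h2 : 0 ≤ ∑ i, u ⟨g.1, i⟩ := Finset.sum_nonneg fun i _ => (hu ⟨g.1, i⟩).1.le
  linarith [hY g.1]

/-- The sizes of the gaps. -/
theorem lintegral_dom_le {M : ℝ} (hM : 1 ≤ M) (hY : ∀ k, D.Y k ≤ M) :
    ∫⁻ u in R.dom D, ENNReal.ofReal (∏ f, q M (u f)) ≤
      ENNReal.ofReal (2 ^ Fintype.card R.Gf) := by
  have h0 : ∀ u : R.Gf → ℝ, 0 ≤ ∏ f, (Icc 0 M).indicator (q M) (u f) := fun u =>
    Finset.prod_nonneg fun f _ => indicator_nonneg (fun _ _ => q_nonneg _ _) _
  have h1 : ∫⁻ u in R.dom D, ENNReal.ofReal (∏ f, q M (u f)) ≤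
      ∫⁻ u : R.Gf → ℝ, ENNReal.ofReal (∏ f, (Icc 0 M).indicator (q M) (u f)) := by
    refine le_trans ?_ (setLIntegral_le_lintegral (R.dom D) _)
    refine setLIntegral_mono' (measurableSet_dom R D) fun u hu => ENNReal.ofReal_le_ofReal ?_
    refine le_of_eq (Finset.prod_congr rfl fun f _ => ?_)
    rw [indicator_of_mem (dom_le R D hY hu f)]
  refine h1.trans ?_
  have hi : Integrable fun u : R.Gf → ℝ => ∏ f, (Icc 0 M).indicator (q M) (u f) :=
    Integrable.fintype_prod_dep (f := fun (_ : R.Gf) (x : ℝ) => (Icc 0 M).indicator (q M) x)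
      fun _ => (integrable_indicator_iff measurableSet_Icc).2 (integrableOn_q M)
  rw [← ofReal_integral_eq_lintegral_ofReal hi (Eventually.of_forall h0)]
  refine ENNReal.ofReal_le_ofReal ?_
  rw [integral_fintype_prod_volume_eq_pow (fun x => (Icc 0 M).indicator (q M) x)]
  refine pow_le_pow_left₀ (integral_nonneg fun x => indicator_nonneg (fun _ _ => q_nonneg _ _) x)
    ?_ _
  rw [integral_indicator measurableSet_Icc]
  exact integral_q_le hM

/-- Bound of the area of a zone of the core. -/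
def VB (R0 : ℝ) : ℝ := (volume (Metric.closedBall (0 : ℂ) (R0 + R0⁻¹))).toReal

theorem VB_nonneg (R0 : ℝ) : 0 ≤ VB R0 := ENNReal.toReal_nonneg

theorem volume_zone_le {R0 : ℝ} (hR : 0 < R0) (b : Bool) :
    volume (D.zone R0 b) ≤ ENNReal.ofReal (VB R0) := by
  have hfin : volume (Metric.closedBall (0 : ℂ) (R0 + R0⁻¹)) ≠ ∞ :=
    (isCompact_closedBall _ _).measure_lt_top.ne
  rw [VB, ENNReal.ofReal_toReal hfin]
  refine measure_mono fun z hz => ?_
  rw [mem_closedBall_zero_iff]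
  have hi : 0 < R0⁻¹ := by positivity
  cases b with
  | false =>
    have h : ‖z‖ ≤ R0 := hz.2
    linarith
  | true =>
    have h : R0 < ‖z⁻¹‖ := hz.2
    rw [norm_inv] at h
    have hz0 : 0 < ‖z‖ := by
      rcases (norm_nonneg z).eq_or_lt with h0 | h0
      · rw [← h0, inv_zero] at h
        linarith
      · exact h0
    have h2 : ‖z‖ ≤ R0⁻¹ := by
      rw [← inv_inv ‖z‖]
      exact inv_anti₀ hR h.le
    linarith

theorem volume_zones_le {R0 : ℝ} (hR : 0 < R0) (far : R.Kc → Bool) :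
    volume (Set.univ.pi fun c => D.zone R0 (far c)) ≤
      ENNReal.ofReal (VB R0 ^ Fintype.card R.Kc) := by
  rw [volume_pi_pi, ENNReal.ofReal_pow (VB_nonneg R0)]
  calc ∏ c, volume (D.zone R0 (far c)) ≤ ∏ _c : R.Kc, ENNReal.ofReal (VB R0) :=
        Finset.prod_le_prod' fun c _ => volume_zone_le D hR (far c)
    _ = _ := by simp

theorem volume_box : volume R.box = ENNReal.ofReal ((2 * Real.pi) ^ Fintype.card R.Gf) := by
  have h : volume R.box = ∏ _g : R.Gf, volume (Ioc (-Real.pi) Real.pi) := volume_pi_pi _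
  rw [h]
  simp only [Real.volume_Ioc, Finset.prod_const, Finset.card_univ]
  rw [ENNReal.ofReal_pow (by positivity)]
  congr 2
  ring

/-- The constant of one region. -/
def CR (R0 : ℝ) : ℝ :=
  2 ^ Fintype.card R.Gf * (2 * Real.pi) ^ Fintype.card R.Gf * VB R0 ^ Fintype.card R.Kc

theorem CR_nonneg (R0 : ℝ) : 0 ≤ CR R R0 := by
  have := VB_nonneg R0
  have := Real.pi_pos
  unfold CR
  positivity

/-- **One region.** -/
theorem lintegral_fmeas_le {R0 M : ℝ} (hR : 0 < R0) (hM : 1 ≤ M) (hY : ∀ k, D.Y k ≤ M)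
    (far : R.Kc → Bool) :
    ∫⁻ x, ENNReal.ofReal (∏ f, q M (x.1.1 f)) ∂(R.fmeas D R0 far) ≤
      ENNReal.ofReal (CR R R0) := by
  have hpi := Real.pi_pos
  have hm : Measurable fun u : R.Gf → ℝ => ENNReal.ofReal (∏ f, q M (u f)) := by
    refine ENNReal.measurable_ofReal.comp (Finset.measurable_fun_prod _ fun f _ => ?_)
    exact (continuous_q M).measurable.comp (measurable_pi_apply f)
  unfold Reg.fmeas
  have e1 := lintegral_prod_mul
    (μ := (volume.restrict (R.dom D)).prod (volume.restrict R.box))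
    (ν := volume.restrict (Set.univ.pi fun c => D.zone R0 (far c)))
    (f := fun x : (R.Gf → ℝ) × (R.Gf → ℝ) => ENNReal.ofReal (∏ f, q M (x.1 f)))
    (g := fun _ => 1) (hm.comp measurable_fst).aemeasurable aemeasurable_const
  have e2 := lintegral_prod_mul (μ := volume.restrict (R.dom D)) (ν := volume.restrict R.box)
    (f := fun u : R.Gf → ℝ => ENNReal.ofReal (∏ f, q M (u f)))
    (g := fun _ => 1) hm.aemeasurable aemeasurable_const
  simp only [mul_one, lintegral_const, one_mul, Measure.restrict_apply_univ] at e1 e2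
  rw [e1, e2, CR]
  rw [ENNReal.ofReal_mul (by positivity), ENNReal.ofReal_mul (by positivity)]
  refine mul_le_mul' (mul_le_mul' (lintegral_dom_le R D hM hY) ?_) (volume_zones_le R D hR far)
  exact (volume_box R).le

end Regions

/-- The constant of (I4c). -/
def CI (K : Type) [Fintype K] [DecidableEq K] (R0 : ℝ) : ℝ :=
  ∑ R : Reg L K, ∑ _far : R.Kc → Bool, CR R R0

variable {K : Type} [Fintype K] [DecidableEq K]

theorem CI_nonneg (R0 : ℝ) : 0 ≤ CI K R0 :=
  Finset.sum_nonneg fun R _ => Finset.sum_nonneg fun _ _ => CR_nonneg R R0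

theorem ofReal_mul_enorm {a x : ℝ} (ha : 0 ≤ a) :
    ENNReal.ofReal a * ‖x‖ₑ = ENNReal.ofReal (a * |x|) := by
  rw [ENNReal.ofReal_mul ha, Real.enorm_eq_ofReal_abs]

/-- **(I4c)** -/
theorem abs_PhiF_le (X : Ext) (Θ : Gauge) (T : MT) {b : C6} (hb : b ∈ H681.XX)
    (v : Fin 2 → C6) {D : Necks K} (hD : D.Good) (hs : D.s = br b) {R0 M A : ℝ} (hR : 0 < R0)
    (hM : 1 ≤ M) (hY : ∀ k, D.Y k ≤ M) (hA : 0 ≤ A)
    (h : ∀ (R : Reg L K) (far : R.Kc → Bool), ∀ᵐ x ∂(R.fmeas D R0 far),
      R.fjac D far x * |ig X Θ T b v (R.fpos D far x)| ≤ A * ∏ f, q M (x.1.1 f)) :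
    |PhiF X Θ T b v| ≤ A * CI K R0 := by
  have h1 := enorm_PhiF_le X Θ T hb v
  rw [← hs] at h1
  have h2 := h1.trans (lintegral_region_le hD hR.le fun P => ‖ig X Θ T b v P‖ₑ)
  have h3 : ∀ (R : Reg L K) (far : R.Kc → Bool),
      ∫⁻ x, ENNReal.ofReal (R.fjac D far x) * ‖ig X Θ T b v (R.fpos D far x)‖ₑ
        ∂(R.fmeas D R0 far) ≤ ENNReal.ofReal (A * CR R R0) := by
    intro R far
    calc ∫⁻ x, ENNReal.ofReal (R.fjac D far x) * ‖ig X Θ T b v (R.fpos D far x)‖ₑ
          ∂(R.fmeas D R0 far)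
        ≤ ∫⁻ x, ENNReal.ofReal A * ENNReal.ofReal (∏ f, q M (x.1.1 f)) ∂(R.fmeas D R0 far) := by
          refine lintegral_mono_ae ?_
          filter_upwards [h R far] with x hx
          rw [ofReal_mul_enorm (R.fjac_nonneg D far x), ← ENNReal.ofReal_mul hA]
          exact ENNReal.ofReal_le_ofReal hx
      _ = ENNReal.ofReal A * ∫⁻ x, ENNReal.ofReal (∏ f, q M (x.1.1 f)) ∂(R.fmeas D R0 far) := by
          rw [lintegral_const_mul' _ _ ENNReal.ofReal_ne_top]
      _ ≤ ENNReal.ofReal A * ENNReal.ofReal (CR R R0) := by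
          gcongr
          exact lintegral_fmeas_le R D hR hM hY far
      _ = _ := (ENNReal.ofReal_mul hA).symm
  have h4 : ‖PhiF X Θ T b v‖ₑ ≤ ENNReal.ofReal (A * CI K R0) := by
    refine h2.trans ?_
    have h5 : A * CI K R0 = ∑ R : Reg L K, ∑ _far : R.Kc → Bool, A * CR R R0 := by
      simp only [CI, Finset.mul_sum]
    rw [h5, ENNReal.ofReal_sum_of_nonneg fun R _ => Finset.sum_nonneg fun _ _ =>
      mul_nonneg hA (CR_nonneg R R0)]
    refine Finset.sum_le_sum fun R _ => ?_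
    rw [ENNReal.ofReal_sum_of_nonneg fun _ _ => mul_nonneg hA (CR_nonneg R R0)]
    exact Finset.sum_le_sum fun far _ => h3 R far
  rw [Real.enorm_eq_ofReal_abs] at h4
  exact (ENNReal.ofReal_le_ofReal_iff (mul_nonneg hA (CI_nonneg R0))).1 h4

end

end Vale.Agent.P273.H120
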