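import Vale.Agent.P273.H120.NegI4b
import Vale.Agent.P273.H879.Pt

/-!
# P273, row NEG (helper120): the measure half `PhiLe` of H879/Pt.lean
-/

open MeasureTheory Set Filter Topology
open scoped ENNReal

namespace Vale.Agent.P273.H120

open H95 H681 H973 H852

set_option linter.unusedSectionVars false

noncomputable section

section Regions

variable {ι K : Type*} [Fintype ι] [DecidableEq ι] [Fintype K] [DecidableEq K]

theorem lintegral_region_le' {D : Necks K} (hD : D.Good) (g : (ι → ℂ × ℂ) → ℝ≥0∞) :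
    ∫⁻ P, g P ∂(Measure.pi fun _ : ι => sheetMeas D.s volume) ≤
      ∑ R : Reg ι K, ∫⁻ x, ENNReal.ofReal (R.jac D (R.tau D x.1.1 x.1.2)) *
        g (R.pos D (R.tau D x.1.1 x.1.2) x.2) ∂(R.meas D) := by
  rw [region_measure_eq hD, lintegral_finsetSum_measure]
  refine Finset.sum_le_sum fun R _ => ?_
  refine (lintegral_map_le _ _).trans ?_
  exact lintegral_withDensity_le_lintegral_mul _
    ((R.measurable_jac D).comp measurable_fst).ennreal_ofReal
    fun x => g (R.pos D (R.tau D x.1.1 x.1.2) x.2)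

variable (R : Reg ι K) (D : Necks K)

theorem lintegral_core_le {w : ℂ → ℝ} (hw0 : ∀ z, 0 ≤ w z) (hw : Integrable w) :
    ∫⁻ z in (Set.univ.pi fun _ : R.Kc => D.core), ENNReal.ofReal (∏ c, w (z c)) ≤
      ENNReal.ofReal ((∫ z, w z) ^ Fintype.card R.Kc) := by
  refine (setLIntegral_le_lintegral _ _).trans ?_
  have hi : Integrable fun z : R.Kc → ℂ => ∏ c, w (z c) :=
    Integrable.fintype_prod_dep (f := fun (_ : R.Kc) (x : ℂ) => w x) fun _ => hw
  rw [← ofReal_integral_eq_lintegral_ofReal hi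
    (Eventually.of_forall fun z => Finset.prod_nonneg fun c _ => hw0 _)]
  refine ENNReal.ofReal_le_ofReal ?_
  rw [integral_fintype_prod_volume_eq_pow w]

/-- The constant of one region. -/
def CRw (w : ℂ → ℝ) : ℝ :=
  (4 * Real.pi) ^ (Fintype.card R.Gf) * (∫ z, w z) ^ (Fintype.card R.Kc)

theorem CRw_nonneg {w : ℂ → ℝ} (hw0 : ∀ z, 0 ≤ w z) : 0 ≤ CRw R w := by
  have h1 : 0 ≤ ∫ z, w z := integral_nonneg hw0
  have := Real.pi_pos
  unfold CRw
  positivity

/-- **One region.** -/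
theorem lintegral_meas_le {M : ℝ} (hM : 1 ≤ M) (hY : ∀ k, D.Y k ≤ M) {w : ℂ → ℝ}
    (hw0 : ∀ z, 0 ≤ w z) (hw : Integrable w) :
    ∫⁻ x, ENNReal.ofReal (∏ f, q M (x.1.1 f)) * ENNReal.ofReal (∏ c, w (x.2 c)) ∂(R.meas D) ≤
      ENNReal.ofReal (CRw R w) := by
  have hpi := Real.pi_pos
  have hm : Measurable fun u : R.Gf → ℝ => ENNReal.ofReal (∏ f, q M (u f)) := by
    refine ENNReal.measurable_ofReal.comp (Finset.measurable_fun_prod _ fun f _ => ?_)
    exact (continuous_q M).measurable.comp (measurable_pi_apply f)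
  have hi : Integrable fun z : R.Kc → ℂ => ∏ c, w (z c) :=
    Integrable.fintype_prod_dep (f := fun (_ : R.Kc) (x : ℂ) => w x) fun _ => hw
  have hm2 : AEMeasurable (fun z : R.Kc → ℂ => ENNReal.ofReal (∏ c, w (z c)))
      (volume.restrict (Set.univ.pi fun _ : R.Kc => D.core)) :=
    hi.aemeasurable.ennreal_ofReal.restrict
  unfold Reg.meas
  have e1 := lintegral_prod_mul
    (μ := (volume.restrict (R.dom D)).prod (volume.restrict R.box))
    (ν := volume.restrict (Set.univ.pi fun _ : R.Kc => D.core))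
    (f := fun x : (R.Gf → ℝ) × (R.Gf → ℝ) => ENNReal.ofReal (∏ f, q M (x.1 f)))
    (g := fun z => ENNReal.ofReal (∏ c, w (z c))) (hm.comp measurable_fst).aemeasurable
    hm2
  have e2 := lintegral_prod_mul (μ := volume.restrict (R.dom D)) (ν := volume.restrict R.box)
    (f := fun u : R.Gf → ℝ => ENNReal.ofReal (∏ f, q M (u f)))
    (g := fun _ => 1) hm.aemeasurable aemeasurable_const
  simp only [mul_one, lintegral_const, one_mul, Measure.restrict_apply_univ] at e2
  have e3 : CRw R w = 2 ^ Fintype.card R.Gf * (2 * Real.pi) ^ Fintype.card R.Gf *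
      (∫ z, w z) ^ (Fintype.card R.Kc) := by
    rw [CRw, ← mul_pow]
    congr 2
    ring
  rw [e1, e2, e3]
  rw [ENNReal.ofReal_mul (by positivity), ENNReal.ofReal_mul (by positivity)]
  refine mul_le_mul' (mul_le_mul' (lintegral_dom_le R D hM hY) ?_)
    (lintegral_core_le R D hw0 hw)
  exact (volume_box R).le

end Regions

variable {K : Type} [Fintype K] [DecidableEq K]

/-- **(I4c)**, without zones -/
theorem abs_PhiF_le_meas (X : Ext) (Θ : Gauge) (T : MT) {b : C6} (hb : b ∈ H681.XX)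
    (v : Fin 2 → C6) {D : Necks K} (hD : D.Good) (hs : D.s = br b) {M A : ℝ}
    (hM : 1 ≤ M) (hY : ∀ k, D.Y k ≤ M) (hA : 0 ≤ A) {w : ℂ → ℝ} (hw0 : ∀ z, 0 ≤ w z)
    (hw : Integrable w)
    (h : ∀ (R : Reg L K), ∀ᵐ x ∂(R.meas D),
      R.jac D (R.tau D x.1.1 x.1.2) * |ig X Θ T b v (R.pos D (R.tau D x.1.1 x.1.2) x.2)| ≤
        A * ((∏ f, q M (x.1.1 f)) * ∏ c, w (x.2 c))) :
    |PhiF X Θ T b v| ≤ A * ∑ R : Reg L K, CRw R w := by
  have h1 := enorm_PhiF_le X Θ T hb v
  rw [← hs] at h1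
  have h2 := h1.trans (lintegral_region_le' hD fun P => ‖ig X Θ T b v P‖ₑ)
  have h3 : ∀ (R : Reg L K),
      ∫⁻ x, ENNReal.ofReal (R.jac D (R.tau D x.1.1 x.1.2)) *
        ‖ig X Θ T b v (R.pos D (R.tau D x.1.1 x.1.2) x.2)‖ₑ ∂(R.meas D) ≤
        ENNReal.ofReal (A * CRw R w) := by
    intro R
    calc ∫⁻ x, ENNReal.ofReal (R.jac D (R.tau D x.1.1 x.1.2)) *
        ‖ig X Θ T b v (R.pos D (R.tau D x.1.1 x.1.2) x.2)‖ₑ ∂(R.meas D)
        ≤ ∫⁻ x, ENNReal.ofReal A * (ENNReal.ofReal (∏ f, q M (x.1.1 f)) *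
            ENNReal.ofReal (∏ c, w (x.2 c))) ∂(R.meas D) := by
          refine lintegral_mono_ae ?_
          filter_upwards [h R] with x hx
          rw [ofReal_mul_enorm (R.jac_nonneg D _), ← ENNReal.ofReal_mul
            (Finset.prod_nonneg fun f _ => q_nonneg _ _), ← ENNReal.ofReal_mul hA]
          exact ENNReal.ofReal_le_ofReal hx
      _ = ENNReal.ofReal A * ∫⁻ x, (ENNReal.ofReal (∏ f, q M (x.1.1 f)) *
            ENNReal.ofReal (∏ c, w (x.2 c))) ∂(R.meas D) := by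
          rw [lintegral_const_mul' _ _ ENNReal.ofReal_ne_top]
      _ ≤ ENNReal.ofReal A * ENNReal.ofReal (CRw R w) := by
          gcongr
          exact lintegral_meas_le R D hM hY hw0 hw
      _ = _ := (ENNReal.ofReal_mul hA).symm
  have hC : 0 ≤ ∑ R : Reg L K, CRw R w := Finset.sum_nonneg fun R _ => CRw_nonneg R hw0
  have h4 : ‖PhiF X Θ T b v‖ₑ ≤ ENNReal.ofReal (A * ∑ R : Reg L K, CRw R w) := by
    refine h2.trans ?_
    rw [Finset.mul_sum, ENNReal.ofReal_sum_of_nonneg fun R _ => mul_nonneg hA (CRw_nonneg R hw0)]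
    exact Finset.sum_le_sum fun R _ => h3 R
  rw [Real.enorm_eq_ofReal_abs] at h4
  exact (ENNReal.ofReal_le_ofReal_iff (mul_nonneg hA hC)).1 h4

theorem app_vv (F : Alt (16 + 14) E) (v : Fin 2 → C6) :
    F (H811.vec (n := 28) (k := 2) vb v) = F (vv v) := rfl

/-- The integrand as a form of degree 30. -/
def fm (S : L → Bool) (X : Ext) (Θ : Gauge) (T : MT) (b : C6) (x y : L → ℂ) : Alt (16 + 14) E :=
  wedgeT (GR X.G S (b, x) y) T (fun i => Θ.th i S (b, x) y)

theorem ig_fm (X : Ext) (Θ : Gauge) (T : MT) (b : C6) (v : Fin 2 → C6) (P : L → ℂ × ℂ) :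
    ig X Θ T b v P = fm S0 X Θ T b (fun j => (P j).1) (fun j => (P j).2) (vv v) := rfl

theorem ig_fm' (X : Ext) (Θ : Gauge) (T : MT) (b : C6) (v : Fin 2 → C6) (P : L → ℂ × ℂ) :
    H879.ig X Θ T b v P = fm H879.S0 X Θ T b (fun j => (P j).1) (fun j => (P j).2)
      (H811.vec (n := 28) (k := 2) vb v) := rfl

theorem S0_eq : (H879.S0 : L → Bool) = S0 := rfl

theorem ig_879 (X : Ext) (Θ : Gauge) (T : MT) (b : C6) (v : Fin 2 → C6) (P : L → ℂ × ℂ) :
    H879.ig X Θ T b v P = ig X Θ T b v P := by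
  rw [ig_fm, ig_fm', app_vv, S0_eq]

/-- **The measure half of NEG.** -/
theorem phiLe : H879.PhiLe := by
  intro X Θ T _ b hb v D hD hs hY w hw0 hw A hA h
  have hs' : D.s = br b := funext hs
  have h' := abs_PhiF_le_meas X Θ T hb v hD hs' hY (fun k => le_rfl) hA hw0 hw fun R => by
    filter_upwards [h R] with x hx
    rw [ig_879] at hx
    refine hx.trans_eq ?_
    rw [mul_assoc]
    simp only [q, one_div]
  exact h'

end

end Vale.Agent.P273.H120
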