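import Vale.Agent.P273.H95.Wall

/-!
# P273 (helper120): the coefficients of a sextic with distinct roots

`sx (rts b) x = ∏ (x - b k)`, and `rts b ∈ K6` for distinct roots, in particular on `XX`.
-/

open Polynomial

namespace Vale.Agent.P273.H120

open H95 H681

noncomputable section

/-- The sextic. -/
def pl (b : C6) : ℂ[X] := ∏ k : Fin 6, (X - C (b k))

theorem natDegree_pl (b : C6) : (pl b).natDegree = 6 := by
  rw [pl, natDegree_finsetProd_X_sub_C_eq_card]
  simp

theorem coeff_pl_six (b : C6) : (pl b).coeff 6 = 1 := by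
  have h : (pl b).Monic := monic_prod_X_sub_C b Finset.univ
  have h' := h.coeff_natDegree
  rwa [natDegree_pl] at h'

theorem rts_apply (b : C6) (i : Fin 6) : rts b i = (pl b).coeff i := rfl

theorem eval_pl (b : C6) (x : ℂ) : (pl b).eval x = ∏ k, (x - b k) := by
  rw [pl, eval_prod]
  simp

theorem sx_rts_eval (b : C6) (x : ℂ) : sx (rts b) x = (pl b).eval x := by
  rw [eval_eq_sum_range' (n := 7) (by rw [natDegree_pl]; norm_num)]
  simp only [sx, rts_apply, Fin.sum_univ_six, Finset.sum_range_succ, Finset.sum_range_zero,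
    coeff_pl_six, Fin.isValue, Fin.val_zero, Fin.val_one, Fin.val_two]
  simp
  ring

theorem sx_rts (b : C6) (x : ℂ) : sx (rts b) x = ∏ k, (x - b k) := by
  rw [sx_rts_eval, eval_pl]

theorem sx1_rts_eval (b : C6) (x : ℂ) : sx1 (rts b) x = (derivative (pl b)).eval x := by
  have hd : (derivative (pl b)).natDegree < 6 :=
    lt_of_lt_of_le (natDegree_derivative_lt (by rw [natDegree_pl]; norm_num))
      (by rw [natDegree_pl])
  rw [eval_eq_sum_range' (n := 6) hd]
  simp only [sx1, rts_apply, Fin.sum_univ_six, Finset.sum_range_succ, Finset.sum_range_zero,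
    coeff_derivative, Fin.isValue, Fin.val_zero, Fin.val_one, Fin.val_two]
  simp
  rw [coeff_pl_six]
  ring

/-- Distinct roots. -/
theorem rts_mem_K6 {b : C6} (hb : Function.Injective b) : rts b ∈ K6 := by
  intro x hx
  have hs : (pl b).Separable := separable_prod_X_sub_C_iff.2 hb
  obtain ⟨u, v, huv⟩ := hs
  have h := congrArg (eval x) huv
  rw [eval_add, eval_mul, eval_mul, ← sx_rts_eval, ← sx1_rts_eval, hx.1, hx.2.1] at h
  simp at h

theorem injective_of_mem_XX {b : C6} (hb : b ∈ H681.XX) : Function.Injective b := by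
  intro i j hij
  by_contra hne
  rcases lt_or_gt_of_ne hne with h | h
  · have := hb i j h (by rw [hij])
    rw [hij] at this
    exact lt_irrefl _ this
  · have := hb j i h (by rw [hij])
    rw [hij] at this
    exact lt_irrefl _ this

theorem rts_mem_K6_of_XX {b : C6} (hb : b ∈ H681.XX) : rts b ∈ K6 :=
  rts_mem_K6 (injective_of_mem_XX hb)

theorem sx_rts_ne_zero {b : C6} {x : ℂ} (hx : ∀ k, x ≠ b k) : sx (rts b) x ≠ 0 := by
  rw [sx_rts, Finset.prod_ne_zero_iff]
  exact fun k _ => sub_ne_zero.2 (hx k)

theorem continuous_sx (a : C6) : Continuous (sx a) := by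
  unfold sx
  fun_prop

end

end Vale.Agent.P273.H120
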